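import Vale.Agent.P122.H540.PNu

/-!
# P122 / H812 : StPQ, finite part (helper812)

Two lines of the same box label and the same piece: the normal components (frame `ψ` of the piece) of the
differences of the positions and of the slopes.
-/

set_option autoImplicit false

namespace Vale.Agent.P122.H812

open Vale.Agent.P127 Vale.Agent.P127.Stk Vale.Agent.P127.U Vale.Agent.P122.C2 Vale.Agent.P122.H540

/-! ### digits -/

theorem fl1_cl {m : ℕ} {x y : ℝ} (h : fl1 m x = fl1 m y) : |x - y| ≤ (1 / 2 : ℝ) ^ m := by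
  have h1 := Int.abs_sub_lt_one_of_floor_eq_floor h
  have hp : (0 : ℝ) < 2 ^ m := by positivity
  rw [← mul_sub, abs_mul, abs_of_pos hp] at h1
  rw [one_div, inv_pow, ← one_div, le_div_iff₀ hp]
  linarith

theorem qa_cl (m : ℕ) (θ : ℝ) : |θ - qa m θ| ≤ (1 / 2 : ℝ) ^ m := by
  have hp : (0 : ℝ) < 2 ^ m := by positivity
  have h1 := Int.floor_le ((2 : ℝ) ^ m * θ)
  have h2 := Int.lt_floor_add_one ((2 : ℝ) ^ m * θ)
  have e : θ - qa m θ = ((2 : ℝ) ^ m * θ - ⌊(2 : ℝ) ^ m * θ⌋) / 2 ^ m := by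
    unfold qa fl1
    field_simp
  rw [e, abs_div, abs_of_pos hp, one_div, inv_pow, ← one_div]
  refine div_le_div_of_nonneg_right ?_ hp.le
  rw [abs_le]; constructor <;> linarith

theorem co0 (θ : ℝ) (v : Fin 2 → ℝ) : co θ v 0 = fw θ v := rfl
theorem co1 (θ : ℝ) (v : Fin 2 → ℝ) : co θ v 1 = fn θ v := rfl

theorem fw_sub (θ : ℝ) (v w : Fin 2 → ℝ) : fw θ (fun k => v k - w k) = fw θ v - fw θ w := by
  unfold fw; ring

/-- equal labels -/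
theorem lab_cl {θ θ' : ℝ} {k j : ℕ} {l l' : Ln} (h : U.lab θ k j l = U.lab θ' k j l') :
    ∃ χ : ℝ, |θ - χ| ≤ (1 / 2 : ℝ) ^ (j - k) ∧
      |fw χ (fun m => l.1 m - l'.1 m)| ≤ (1 / 2 : ℝ) ^ k ∧ |fn χ (fun m => l.1 m - l'.1 m)| ≤ (1 / 2 : ℝ) ^ j ∧
      |fw χ (fun m => l.2 m - l'.2 m)| ≤ (1 / 2 : ℝ) ^ k ∧ |fn χ (fun m => l.2 m - l'.2 m)| ≤ (1 / 2 : ℝ) ^ j := by
  unfold U.lab fkj at h
  simp only [Prod.mk.injEq] at h
  obtain ⟨-, -, h1, ⟨h2, h3⟩, ⟨h4, h5⟩⟩ := h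
  have e : qa (j - k) θ' = qa (j - k) θ := by unfold qa; rw [h1]
  rw [e] at h2 h3 h4 h5
  refine ⟨qa (j - k) θ, qa_cl _ _, ?_, ?_, ?_, ?_⟩
  · rw [fw_sub]; exact fl1_cl h2
  · rw [fn_sub]; exact fl1_cl h3
  · rw [fw_sub]; exact fl1_cl h4
  · rw [fn_sub]; exact fl1_cl h5

theorem abs_sin_add (a b : ℝ) : |Real.sin (a + b)| ≤ |Real.sin a| + |Real.sin b| := by
  rw [Real.sin_add]
  refine (abs_add_le _ _).trans ?_
  rw [abs_mul, abs_mul]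
  have h1 := Real.abs_cos_le_one b
  have h2 := Real.abs_cos_le_one a
  nlinarith [abs_nonneg (Real.sin a), abs_nonneg (Real.sin b)]

/-- change of the frame -/
theorem frame {θ ψ χ : ℝ} {k j : ℕ} {B D : ℝ} {v : Fin 2 → ℝ} (hkj : k ≤ j) (hB : 0 ≤ B)
    (h0 : |fw χ v| ≤ (1 / 2 : ℝ) ^ k) (h1 : |fn χ v| ≤ (1 / 2 : ℝ) ^ j) (hr : |θ - χ| ≤ (1 / 2 : ℝ) ^ (j - k))
    (hs : |Real.sin (θ - ψ)| ≤ B) (hv : ∀ m, |v m| ≤ D) : |fn ψ v| ≤ 2 * (1 / 2 : ℝ) ^ j + 2 * B * D := by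
  rw [fn_eq χ ψ v]
  have a1 : |Real.sin (ψ - χ)| ≤ B + (1 / 2 : ℝ) ^ (j - k) := by
    have e : ψ - χ = -(θ - ψ) + (θ - χ) := by ring
    rw [e]
    refine (abs_sin_add _ _).trans ?_
    rw [Real.sin_neg, abs_neg]
    have := Real.abs_sin_le_abs (x := θ - χ)
    linarith
  have a2 : |fw χ v| ≤ 2 * D := by
    have := abs_fw_le χ v
    linarith [hv 0, hv 1]
  have a3 : (1 / 2 : ℝ) ^ (j - k) * (1 / 2 : ℝ) ^ k = (1 / 2 : ℝ) ^ j := by
    rw [← pow_add]; congr 1; omega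
  refine (abs_sub _ _).trans ?_
  rw [abs_mul, abs_mul]
  have b1 : |Real.cos (ψ - χ)| * |fn χ v| ≤ (1 / 2 : ℝ) ^ j := by
    have := Real.abs_cos_le_one (ψ - χ)
    nlinarith [abs_nonneg (fn χ v)]
  have b2 : |Real.sin (ψ - χ)| * |fw χ v| ≤ (B + (1 / 2 : ℝ) ^ (j - k)) * |fw χ v| :=
    mul_le_mul_of_nonneg_right a1 (abs_nonneg _)
  have b3 : B * |fw χ v| ≤ B * (2 * D) := mul_le_mul_of_nonneg_left a2 hB
  have b4 : (1 / 2 : ℝ) ^ (j - k) * |fw χ v| ≤ (1 / 2 : ℝ) ^ (j - k) * (1 / 2 : ℝ) ^ k :=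
    mul_le_mul_of_nonneg_left h0 (by positivity)
  rw [a3] at b4
  nlinarith

/-! ### integer quotients -/

theorem floor_ediv (a : ℤ) (m : ℕ) : ⌊(a : ℝ) / 2 ^ m⌋ = a / 2 ^ m := by
  have h : (2 : ℝ) ^ m = ((2 ^ m : ℕ) : ℝ) := by push_cast; rfl
  rw [h, Int.floor_div_natCast, Int.floor_intCast]
  push_cast
  rfl

theorem fract_diff {a b : ℤ} {m : ℕ} (h : a / 2 ^ m = b / 2 ^ m) :
    Int.fract ((a : ℝ) / 2 ^ m) - Int.fract ((b : ℝ) / 2 ^ m) = ((a : ℝ) - b) / 2 ^ m := by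
  unfold Int.fract
  rw [floor_ediv, floor_ediv, h]
  ring

theorem quo_diff {a b : ℤ} {m : ℕ} (h : a / 2 ^ m = b / 2 ^ m) : |(a : ℝ) - b| ≤ 2 ^ m := by
  rw [← floor_ediv, ← floor_ediv] at h
  have h1 := Int.abs_sub_lt_one_of_floor_eq_floor h
  have hp : (0 : ℝ) < 2 ^ m := by positivity
  rw [← sub_div, abs_div, abs_of_pos hp, div_lt_one hp] at h1
  exact h1.le

/-! ### two tubes of level `i` -/

section two

variable {C : ℝ} {n K i j : ℕ} {s : ℕ → Z2 → Fin 2 → ℝ} {S S' : Nd}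

/-- the line of a node of level `i` -/
noncomputable def lnN (s : ℕ → Z2 → Fin 2 → ℝ) (n i : ℕ) (S : Nd) : Ln :=
  (fun k => Int.fract ((S.o k : ℝ) / 2 ^ (i * n)), s i S.τ)

theorem slope_diff (hs : Slp C n K s) (hC : 0 ≤ C) (hi : i ≤ K) (hij : i ≤ j) (c : Cap n i S.τ) (c' : Cap n i S'.τ)
    (hτ : ∀ k, S.τ k / 2 ^ ((j - i) * n) = S'.τ k / 2 ^ ((j - i) * n)) (k : Fin 2) :
    |s i S.τ k - s i S'.τ k| ≤ 3 * C * 2 ^ ((j - i) * n) / 2 ^ (i * n) := by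
  have h := hs.lip i S.τ S'.τ k hi c c'
  refine h.trans ?_
  refine div_le_div_of_nonneg_right ?_ (by positivity)
  have h0 := quo_diff (hτ 0)
  have h1 := quo_diff (hτ 1)
  have h2 : (1 : ℝ) ≤ 2 ^ ((j - i) * n) := one_le_pow₀ (by norm_num)
  nlinarith

theorem half_pow (j : ℕ) : (1 / 2 : ℝ) ^ j = 1 / 2 ^ j := by rw [one_div, inv_pow, one_div]

/-- main estimate -/
theorem two_tubes (hs : Slp C n K s) (hC : 0 ≤ C) (hi : i ≤ K) (hij : i ≤ j) (c : Cap n i S.τ) (c' : Cap n i S'.τ)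
    (hτ : ∀ k, S.τ k / 2 ^ ((j - i) * n) = S'.τ k / 2 ^ ((j - i) * n))
    (ho : ∀ k, S.o k / 2 ^ ((j - i) * n) = S'.o k / 2 ^ ((j - i) * n))
    (hb : ∀ k, S.o k / 2 ^ (i * n) = S'.o k / 2 ^ (i * n))
    {θ θ' ψ : ℝ} {kk jj : ℕ} (hkj : kk ≤ jj) (hl : U.lab θ kk jj (lnN s n i S) = U.lab θ' kk jj (lnN s n i S'))
    (hψ : |Real.sin (θ - ψ)| ≤ 3 / 2 ^ ((j - i) * n)) :
    |fn ψ (ov S) - fn ψ (ov S')| ≤ 2 * 2 ^ (i * n) / 2 ^ jj + 6 ∧
      |fn ψ (s i S.τ) - fn ψ (s i S'.τ)| ≤ 2 / 2 ^ jj + 18 * C / 2 ^ (i * n) := by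
  obtain ⟨χ, r, a1, a2, a3, a4⟩ := lab_cl hl
  have hp : (0 : ℝ) < 2 ^ (i * n) := by positivity
  have hq : (0 : ℝ) < 2 ^ ((j - i) * n) := by positivity
  have e : (fun m => (lnN s n i S).1 m - (lnN s n i S').1 m) = fun m => (ov S m - ov S' m) / 2 ^ (i * n) := by
    funext m
    exact fract_diff (hb m)
  rw [e] at a1 a2
  constructor
  · have h1 := frame (ψ := ψ) (B := 3 / 2 ^ ((j - i) * n)) (D := 2 ^ ((j - i) * n) / 2 ^ (i * n)) hkj (by positivity) a1 a2 r hψ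
      (fun m => by
        rw [abs_div, abs_of_pos hp]
        exact div_le_div_of_nonneg_right (quo_diff (ho m)) hp.le)
    have e2 : fn ψ (fun m => (ov S m - ov S' m) / 2 ^ (i * n)) = (fn ψ (ov S) - fn ψ (ov S')) / 2 ^ (i * n) := by
      unfold fn; ring
    rw [e2, abs_div, abs_of_pos hp, div_le_iff₀ hp, half_pow] at h1
    refine h1.trans (le_of_eq ?_)
    field_simp
    ring
  · have h1 := frame (ψ := ψ) (B := 3 / 2 ^ ((j - i) * n)) (D := 3 * C * 2 ^ ((j - i) * n) / 2 ^ (i * n)) hkj (by positivity) a3 a4 r hψ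
      (fun m => slope_diff hs hC hi hij c c' hτ m)
    rw [show (fun m => (lnN s n i S).2 m - (lnN s n i S').2 m) = fun m => s i S.τ m - s i S'.τ m from rfl, fn_sub, half_pow] at h1
    refine h1.trans (le_of_eq ?_)
    field_simp
    ring

/-- trivial estimate -/
theorem two_triv (hs : Slp C n K s) (hi : i ≤ K) (c : Cap n i S.τ) (c' : Cap n i S'.τ)
    (ho : ∀ k, S.o k / 2 ^ ((j - i) * n) = S'.o k / 2 ^ ((j - i) * n)) (ψ : ℝ) :
    |fn ψ (ov S) - fn ψ (ov S')| ≤ 2 * 2 ^ ((j - i) * n) ∧ |fn ψ (s i S.τ) - fn ψ (s i S'.τ)| ≤ 4 := by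
  constructor
  · rw [← fn_sub]
    refine (abs_fn_le _ _).trans ?_
    have h0 := quo_diff (ho 0)
    have h1 := quo_diff (ho 1)
    unfold ov
    linarith
  · rw [← fn_sub]
    refine (abs_fn_le _ _).trans ?_
    have h : ∀ k, |s i S.τ k - s i S'.τ k| ≤ 2 := fun k => by
      have h1 := abs_le.1 (hs.bd i S.τ k hi c)
      have h2 := abs_le.1 (hs.bd i S'.τ k hi c')
      rw [abs_le]; constructor <;> linarith
    linarith [h 0, h 1]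

end two

end Vale.Agent.P122.H812
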