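import Vale.Agent.P122.H540.Spec
import Vale.Agent.P122.H540.Tools
import Vale.Agent.P122.H812.PQa

/-!
# P122 / H812 : StPQ (helper812)

The normal position and the normal slope in the frame of the piece are determined by the label of the plank and
the piece up to `2 / K`.
-/

set_option autoImplicit false

namespace Vale.Agent.P122.H812

open Filter Topology Finset Vale.Agent.P127 Vale.Agent.P127.Stk Vale.Agent.P127.U Vale.Agent.P127.U.Sys
  Vale.Agent.P122.C2 Vale.Agent.P122.E Vale.Agent.P122.H540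

theorem cap_N {K : ℕ} (F : Flg K) (i : ℕ) {ω : F.S.Ω i} (hω : 0 < (F.S.P i).w ω) (c : ℕ) (hc : c ≤ K) :
    Cap (F.n i) c (F.N c i ω).τ := by
  induction c with
  | zero =>
    intro k
    rw [(F.root i ω hω).1]
    simp
  | succ c ih =>
    have h1 := ih (by omega)
    have h2 := (F.step i ω hω c (by omega)).1
    intro k
    rw [kids, Fintype.mem_piFinset] at h2
    have h3 := Finset.mem_Ico.1 (h2 k)
    have h4 := h1 k
    have h5 : (0:ℤ) < 2 ^ F.n i := by positivity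
    constructor
    · exact le_trans (mul_nonneg h5.le h4.1) h3.1
    · refine h3.2.trans_le ?_
      calc (2:ℤ) ^ F.n i * ((F.N c i ω).τ k + 1) ≤ 2 ^ F.n i * 2 ^ (c * F.n i) :=
            mul_le_mul_of_nonneg_left (by linarith [h4.2]) h5.le
        _ = 2 ^ ((c + 1) * F.n i) := by rw [← pow_add]; congr 1; ring

theorem C_nonneg {K : ℕ} (F : Flg K) (hK : 1 ≤ K) : 0 ≤ F.C := by
  have h := (F.slp 0).nest 0 (fun _ => 0) 0 (by omega) (fun k => ⟨le_rfl, by positivity⟩)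
  have h2 := (abs_nonneg _).trans h
  simpa using h2

theorem pow_div_le (x y : ℕ) : (2 : ℝ) ^ x / 2 ^ y ≤ 2 ^ (x - y) := by
  rcases le_total y x with h | h
  · obtain ⟨d, rfl⟩ := Nat.exists_eq_add_of_le h
    rw [Nat.add_sub_cancel_left, pow_add]
    refine le_of_eq ?_
    field_simp
  · rw [Nat.sub_eq_zero_of_le h, pow_zero, div_le_one (by positivity)]
    exact pow_le_pow_right₀ (by norm_num) h

/-- finite form -/
theorem fin_PQ {K : ℕ} (F : Flg K) (hK : 1 ≤ K) (W : ℕ → F.S.BX) (kk jj : ℕ → ℕ → ℕ) {c1 : ℝ} {i j u : ℕ}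
    (ψ : ℕ → Nd → ℝ) (hij : i ≤ j) (hj : j ≤ 2 * i) (hjK : j ≤ K) (hu : i + u ≤ j)
    (hc1 : ((j:ℝ) - i) / K ≤ c1 / 2) (a : ℕ)
    (hW : ∀ ω, 0 < (F.S.P a).w ω → (W i a).l ω = F.ln i a ω ∧ |(W i a).θ ω| ≤ 4 ∧
      (W i a).k ω = kk i a ∧ (W i a).j ω = jj i a ∧ kk i a ≤ jj i a ∧ jj i a ≤ i * F.n a) :
    Stk.hc (F.S.P a) (Sys.pr (pD F i j u ψ) (qD F i j (i - u) ψ) a) (Sys.pr (vL F W i) (F.sig i j) a) ≤
      Real.log (((2 * (2 * 2 ^ ((i - u) * F.n a - jj i a) + (⌈18 * F.C⌉₊ + 6)) + 3) ^ 2 : ℕ) : ℝ) +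
        prb F.S (fun a ω => 3 * (2 : ℝ) ^ (-(c1 / 2 * F.S.L a)) < |Real.sin ((W i a).θ ω - ψ a (F.sig i j a ω))|) a *
          Real.log (((2 * (4 * 2 ^ (K * F.n a)) + 3) ^ 2 : ℕ) : ℝ) := by
  classical
  have hC := C_nonneg F hK
  set n := F.n a with hn
  rw [prb_eq]
  refine hc_le_ev (F.S.P a) _ _ _ _ _ fun ω hω => ?_
  set g : ℕ := (i - u) * n - jj i a with hg
  set m : ℕ := 2 * 2 ^ g + (⌈18 * F.C⌉₊ + 6) with hm
  set m1 : ℕ := 4 * 2 ^ (K * n) with hm1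
  set E : Prop := 3 * (2 : ℝ) ^ (-(c1 / 2 * F.S.L a)) < |Real.sin ((W i a).θ ω - ψ a (F.sig i j a ω))| with hE
  obtain ⟨M, hM1, hM2⟩ : ∃ M : ℕ, (E → M = m1) ∧ (¬ E → M = m) := by
    by_cases h : E
    · exact ⟨m1, fun _ => rfl, fun h' => absurd h h'⟩
    · exact ⟨m, fun h' => absurd h' h, fun _ => rfl⟩
  refine ⟨Finset.Icc (pD F i j u ψ a ω - ((M : ℤ) + 1)) (pD F i j u ψ a ω + ((M : ℤ) + 1)) ×ˢ
    Finset.Icc (qD F i j (i - u) ψ a ω - ((M : ℤ) + 1)) (qD F i j (i - u) ψ a ω + ((M : ℤ) + 1)), ?_, ?_, ?_⟩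
  · intro h
    rw [Finset.card_product, card_win, card_win, hM1 h, ← sq]
  · intro h
    rw [Finset.card_product, card_win, card_win, hM2 h, ← sq]
  intro ω' hω' e
  have e1 : BX.lab (W i) a ω' = BX.lab (W i) a ω := congrArg (fun x => x.1.1) e
  have e2 : F.ball i a ω' = F.ball i a ω := congrArg (fun x => x.1.2) e
  have e3 : F.sig i j a ω' = F.sig i j a ω := congrArg (fun x => x.2) e
  obtain ⟨w1, w2, w3, w4, w5, w6⟩ := hW ω hω
  obtain ⟨w1', w2', w3', w4', w5', w6'⟩ := hW ω' hω'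
  have hl : U.lab ((W i a).θ ω) (kk i a) (jj i a) (lnN (F.s a) n i (F.N i a ω)) =
      U.lab ((W i a).θ ω') (kk i a) (jj i a) (lnN (F.s a) n i (F.N i a ω')) := by
    have h1 : BX.lab (W i) a ω = U.lab ((W i a).θ ω) (kk i a) (jj i a) (lnN (F.s a) n i (F.N i a ω)) := by
      show U.lab ((W i a).θ ω) ((W i a).k ω) ((W i a).j ω) ((W i a).l ω) = _
      rw [w3, w4, w1]; rfl
    have h2 : BX.lab (W i) a ω' = U.lab ((W i a).θ ω') (kk i a) (jj i a) (lnN (F.s a) n i (F.N i a ω')) := by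
      show U.lab ((W i a).θ ω') ((W i a).k ω') ((W i a).j ω') ((W i a).l ω') = _
      rw [w3', w4', w1']; rfl
    rw [← h1, ← h2, e1]
  have hb : ∀ k, (F.N i a ω).o k / 2 ^ (i * n) = (F.N i a ω').o k / 2 ^ (i * n) := fun k =>
    (congrFun (congrArg Prod.snd e2) k).symm
  have hτ : ∀ k, (F.N i a ω).τ k / 2 ^ ((j - i) * n) = (F.N i a ω').τ k / 2 ^ ((j - i) * n) := fun k =>
    (congrFun (congrArg Nd.τ e3) k).symm
  have ho : ∀ k, (F.N i a ω).o k / 2 ^ ((j - i) * n) = (F.N i a ω').o k / 2 ^ ((j - i) * n) := fun k =>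
    (congrFun (congrArg Nd.o e3) k).symm
  have hcap := cap_N F a hω i (by omega)
  have hcap' := cap_N F a hω' i (by omega)
  set χ := ψ a (F.sig i j a ω) with hχ
  have key : |fn χ (ov (F.N i a ω')) / 2 ^ (u * n) - fn χ (ov (F.N i a ω)) / 2 ^ (u * n)| ≤ M ∧
      |2 ^ ((i - u) * n) * fn χ (F.s a i (F.N i a ω').τ) - 2 ^ ((i - u) * n) * fn χ (F.s a i (F.N i a ω).τ)| ≤ M := by
    have hp : (0 : ℝ) < 2 ^ (u * n) := by positivity
    have hp1 : (1 : ℝ) ≤ 2 ^ (u * n) := one_le_pow₀ (by norm_num)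
    have hq : (0 : ℝ) < 2 ^ ((i - u) * n) := by positivity
    have hr : (0 : ℝ) < 2 ^ (i * n) := by positivity
    rw [← sub_div, abs_div, abs_of_pos hp, ← mul_sub, abs_mul, abs_of_pos hq, abs_sub_comm,
      abs_sub_comm (fn χ (F.s a i (F.N i a ω').τ))]
    by_cases h : E
    · rw [hM1 h, hm1]
      obtain ⟨t1, t2⟩ := two_triv (S := F.N i a ω) (S' := F.N i a ω') (F.slp a) (by omega : i ≤ K) hcap hcap' ho χ
      push_cast
      constructor
      · rw [div_le_iff₀ hp]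
        have h1 : (2 : ℝ) ^ ((j - i) * n) ≤ 2 ^ (K * n) := pow_le_pow_right₀ (by norm_num) (Nat.mul_le_mul_right n (by omega))
        have h2 : (0 : ℝ) < 2 ^ (K * n) := by positivity
        nlinarith
      · have h1 : (2 : ℝ) ^ ((i - u) * n) ≤ 2 ^ (K * n) := pow_le_pow_right₀ (by norm_num) (Nat.mul_le_mul_right n (by omega))
        calc (2 : ℝ) ^ ((i - u) * n) * _ ≤ 2 ^ (K * n) * 4 := mul_le_mul h1 t2 (abs_nonneg _) (by positivity)
          _ = _ := by ring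
    · rw [hM2 h, hm]
      have hψ : |Real.sin ((W i a).θ ω - χ)| ≤ 3 / 2 ^ ((j - i) * n) := by
        rw [hE, not_lt] at h
        refine h.trans ?_
        have hL : F.S.L a = K * n := F.L_eq a
        have hL' : (F.S.L a : ℝ) = K * n := by rw [hL]; push_cast; rfl
        have hK0 : (0:ℝ) < K := by exact_mod_cast hK
        have h1 : (((j - i) * n : ℕ) : ℝ) ≤ c1 / 2 * F.S.L a := by
          rw [div_le_iff₀ hK0] at hc1
          rw [hL']
          push_cast [Nat.cast_sub hij]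
          have := mul_le_mul_of_nonneg_right hc1 (Nat.cast_nonneg n : (0:ℝ) ≤ n)
          linarith
        have h2 : (2 : ℝ) ^ (-(c1 / 2 * F.S.L a)) ≤ (2 : ℝ) ^ (-(((j - i) * n : ℕ) : ℝ)) :=
          Real.rpow_le_rpow_of_exponent_le (by norm_num) (by linarith)
        have h3 : (2 : ℝ) ^ (-(((j - i) * n : ℕ) : ℝ)) = (2 ^ ((j - i) * n))⁻¹ := by
          rw [Real.rpow_neg (by norm_num), Real.rpow_natCast]
        rw [h3] at h2
        exact (mul_le_mul_of_nonneg_left h2 (by norm_num)).trans (le_of_eq (div_eq_mul_inv _ _).symm)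
      obtain ⟨t1, t2⟩ := two_tubes (F.slp a) hC (by omega : i ≤ K) hij hcap hcap' hτ ho hb w5 hl hψ
      have h3 := pow_div_le ((i - u) * n) (jj i a)
      rw [← hg] at h3
      have h4 := Nat.le_ceil (18 * F.C)
      have h5 : (2 : ℝ) ^ (i * n) = 2 ^ ((i - u) * n) * 2 ^ (u * n) := by
        rw [← pow_add, ← Nat.add_mul]
        congr 2
        omega
      push_cast
      constructor
      · rw [div_le_iff₀ hp]
        refine t1.trans ?_
        rw [h5]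
        have h6 : 2 * ((2 : ℝ) ^ ((i - u) * n) * 2 ^ (u * n)) / 2 ^ jj i a =
            2 * (2 ^ ((i - u) * n) / 2 ^ jj i a) * 2 ^ (u * n) := by ring
        rw [h6]
        have h7 : 2 * ((2 : ℝ) ^ ((i - u) * n) / 2 ^ jj i a) * 2 ^ (u * n) ≤ 2 * 2 ^ g * 2 ^ (u * n) := by gcongr
        nlinarith [Nat.cast_nonneg (α := ℝ) ⌈18 * F.C⌉₊]
      · calc (2 : ℝ) ^ ((i - u) * n) * _ ≤ 2 ^ ((i - u) * n) * (2 / 2 ^ jj i a + 18 * F.C / 2 ^ (i * n)) :=
              mul_le_mul_of_nonneg_left t2 hq.le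
          _ = 2 * (2 ^ ((i - u) * n) / 2 ^ jj i a) + 18 * F.C * (2 ^ ((i - u) * n) / 2 ^ (i * n)) := by ring
          _ ≤ 2 * 2 ^ g + 18 * F.C * 1 := by
              gcongr
              rw [div_le_one hr]
              exact pow_le_pow_right₀ (by norm_num) (Nat.mul_le_mul_right n (by omega))
          _ ≤ _ := by linarith
  rw [Finset.mem_product]
  constructor
  · show pD F i j u ψ a ω' ∈ _
    have h1 : pD F i j u ψ a ω' = ⌊fn χ (ov (F.N i a ω')) / 2 ^ (u * n)⌋ := by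
      unfold pD pdg
      rw [e3]
    rw [h1]
    exact floor_mem key.1
  · show qD F i j (i - u) ψ a ω' ∈ _
    have h1 : qD F i j (i - u) ψ a ω' = ⌊2 ^ ((i - u) * n) * fn χ (F.s a i (F.N i a ω').τ)⌋ := by
      unfold qD
      rw [e3]
      rfl
    rw [h1]
    exact floor_mem key.2

theorem log_good (g M0 : ℕ) :
    Real.log (((2 * (2 * 2 ^ g + M0) + 3) ^ 2 : ℕ) : ℝ) ≤ 2 * (g * Real.log 2) + 2 * Real.log (2 * M0 + 7) := by
  push_cast
  rw [Real.log_pow]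
  push_cast
  have h1 : (2 * (2 * (2:ℝ) ^ g + M0) + 3) ≤ 2 ^ g * (2 * M0 + 7) := by
    have : (1 : ℝ) ≤ 2 ^ g := one_le_pow₀ (by norm_num)
    nlinarith [Nat.cast_nonneg (α := ℝ) M0]
  have h2 := Real.log_le_log (by positivity) h1
  rw [Real.log_mul (by positivity) (by positivity), Real.log_pow] at h2
  linarith

/-- StPQ with the frame at the level `i` only -/
theorem pq1 {K : ℕ} (F : Flg K) (J θ H e : ℕ → ℝ) (W : ℕ → F.S.BX) (kk jj : ℕ → ℕ → ℕ) (hK : 1 ≤ K)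
    (hA : RegA F J θ H e W kk jj) (c1 : ℝ) (i j u : ℕ) (ψ : ℕ → Nd → ℝ) (hi : 1 ≤ i) (hij : i ≤ j) (hj : j ≤ 2 * i)
    (hjK : j ≤ K) (hu : i + u ≤ j) (hc1 : 0 < c1) (hc1' : ((j:ℝ) - i) / K ≤ c1 / 2)
    (hα : |nα F jj i - ((i:ℝ) + u) / K| ≤ 1 / K)
    (hR : Rare F.S fun a ω => 3 * (2 : ℝ) ^ (-(c1 / 2 * F.S.L a)) < |Real.sin ((W i a).θ ω - ψ a (F.sig i j a ω))|) :
    F.S.hc (Sys.pr (pD F i j u ψ) (qD F i j (i - u) ψ)) (Sys.pr (vL F W i) (F.sig i j)) ≤ 2 / K := by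
  have hK0 : (0:ℝ) < K := by exact_mod_cast hK
  have hiK : i ≤ K := by omega
  have hT : Tame (Sys.pr (pD F i j u ψ) (qD F i j (i - u) ψ)) := by
    refine Sys_tame_fn (tame_of_cnt (hA.N1 i hiK)) fun a => ⟨fun S =>
      (pdg (F.n a) u (ψ a ⟨fun k => S.τ k / 2 ^ ((j - i) * F.n a), fun k => S.o k / 2 ^ ((j - i) * F.n a), S.T⟩) S,
        ⌊2 ^ ((i - u) * F.n a) * fn (ψ a ⟨fun k => S.τ k / 2 ^ ((j - i) * F.n a), fun k => S.o k / 2 ^ ((j - i) * F.n a), S.T⟩)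
          (F.s a i S.τ)⌋), fun ω => rfl⟩
  refine le_of_forall_pos_le_add fun ε hε => ?_
  refine hc_le_rare hT hR (2 / K + ε) (2 * Real.log (2 * ((⌈18 * F.C⌉₊ + 6 : ℕ) : ℝ) + 7)) 3 (by norm_num) ?_
  have hub : UB fun a => (jj i a : ℝ) / F.S.L a := by
    refine UB.of_le (C := 1) (Eventually.of_forall fun a => by positivity) ?_
    filter_upwards [hA.Wok i hiK, F.S.L_pos] with a ha hL
    obtain ⟨ω, hω⟩ := exists_pos (F.S.P a)
    have h1 := (ha ω hω).2.2.2.2.2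
    rw [div_le_one (by exact_mod_cast hL), F.L_eq]
    exact_mod_cast h1.trans (Nat.mul_le_mul_right _ hiK)
  have hnu : ((i:ℝ) - u - 1) / K - ε / 2 < ulim fun a => (jj i a : ℝ) / F.S.L a := by
    have h1 : F.S.nu (jj i) = ulim fun a => (jj i a : ℝ) / F.S.L a := rfl
    rw [← h1]
    unfold nα at hα
    have h2 := (abs_le.1 hα).2
    have e : ((i:ℝ) - u - 1) / K = 2 * i / K - (i + u) / K - 1 / K := by field_simp; ring
    rw [e]; linarith
  have hlog11 : ∀ᶠ a in (uf : Filter ℕ), 2 * Real.log 11 ≤ F.S.nm a := F.S.nm_tendsto.eventually_ge_atTop _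
  filter_upwards [hA.Wok i hiK, F.S.L_pos, lt_ulim_eventually hub hnu, hlog11] with a ha hL hja h11
  have hLr : (0:ℝ) < F.S.L a := by exact_mod_cast hL
  have hLe : (F.S.L a : ℝ) = K * F.n a := by rw [F.L_eq]; push_cast; rfl
  have h1 := fin_PQ F hK W kk jj (c1 := c1) ψ hij hj hjK hu hc1' a ha
  have hl2 : 0 < Real.log 2 := Real.log_pos (by norm_num)
  have hprb : 0 ≤ prb F.S (fun a ω => 3 * (2 : ℝ) ^ (-(c1 / 2 * F.S.L a)) < |Real.sin ((W i a).θ ω - ψ a (F.sig i j a ω))|) a := by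
    unfold prb
    refine Finset.sum_nonneg fun ω _ => mul_nonneg ((F.S.P a).nn ω) ?_
    beta_reduce
    split_ifs <;> norm_num
  have h2 := log_good ((i - u) * F.n a - jj i a) (⌈18 * F.C⌉₊ + 6)
  have h3 : Real.log (((2 * (4 * 2 ^ (K * F.n a)) + 3) ^ 2 : ℕ) : ℝ) ≤ 3 * F.S.nm a := by
    push_cast
    rw [Real.log_pow]
    push_cast
    have h4 : (2 * (4 * (2:ℝ) ^ (K * F.n a)) + 3) ≤ 2 ^ (K * F.n a) * 11 := by
      have : (1 : ℝ) ≤ 2 ^ (K * F.n a) := one_le_pow₀ (by norm_num)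
      nlinarith
    have h5 := Real.log_le_log (by positivity) h4
    rw [Real.log_mul (by positivity) (by positivity), Real.log_pow] at h5
    have h6 : F.S.nm a = ((K * F.n a : ℕ) : ℝ) * Real.log 2 := by
      rw [nm_eq, F.L_eq]
    rw [h6] at h11 ⊢
    linarith
  have h7 : (((i - u) * F.n a - jj i a : ℕ) : ℝ) * Real.log 2 ≤ (1 / K + ε / 2) * F.S.nm a := by
    rw [nm_eq, ← mul_assoc]
    refine mul_le_mul_of_nonneg_right ?_ hl2.le
    rcases le_total (jj i a) ((i - u) * F.n a) with h8 | h8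
    · rw [Nat.cast_sub h8]
      rw [lt_div_iff₀ hLr] at hja
      have h9 : (((i - u) * F.n a : ℕ) : ℝ) = ((i:ℝ) - u) * F.n a := by
        have hui : u ≤ i := by omega
        push_cast [Nat.cast_sub hui]; ring
      rw [h9]
      have h10 : (((i:ℝ) - u - 1) / K - ε / 2) * F.S.L a = ((i:ℝ) - u - 1) * F.n a - ε / 2 * F.S.L a := by
        rw [hLe]; field_simp
      have h12 : (1 / (K:ℝ) + ε / 2) * F.S.L a = F.n a + ε / 2 * F.S.L a := by
        rw [hLe]; field_simp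
      rw [h10] at hja
      rw [h12]
      linarith
    · rw [Nat.sub_eq_zero_of_le h8]
      push_cast
      positivity
  have h8 : prb F.S (fun a ω => 3 * (2 : ℝ) ^ (-(c1 / 2 * F.S.L a)) < |Real.sin ((W i a).θ ω - ψ a (F.sig i j a ω))|) a *
      Real.log (((2 * (4 * 2 ^ (K * F.n a)) + 3) ^ 2 : ℕ) : ℝ) ≤
      prb F.S (fun a ω => 3 * (2 : ℝ) ^ (-(c1 / 2 * F.S.L a)) < |Real.sin ((W i a).θ ω - ψ a (F.sig i j a ω))|) a *
        (3 * F.S.nm a) := mul_le_mul_of_nonneg_left h3 hprb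
  have h9 : (2 / (K:ℝ) + ε) * F.S.nm a = 2 * ((1 / K + ε / 2) * F.S.nm a) := by ring
  rw [h9]
  linarith

theorem stPQ : StPQ := by
  intro K F J θ H e W kk jj hK hA c1 i j u ψ hi hij hj hjK hu hc1 hc1' hα hFr
  exact pq1 F J θ H e W kk jj hK hA c1 i j u ψ hi hij hj hjK hu hc1 hc1' hα (hFr i hi (by omega) hij)

end Vale.Agent.P122.H812
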